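import Vale.Agent.P230.Upper.Cover

/-!
P230: periodic coverings by greedily chosen translates, completed by a maximal packing.
-/

open MeasureTheory Set
open scoped ENNReal Pointwise

namespace Vale.Agent.P230.Rogers

open Vale.Agent.P230.Upper

noncomputable section

variable {N : ℕ}

/-- The periodic set generated by `U`. -/
def per (U : Set (Fin N → ℝ)) : Set (Fin N → ℝ) := {x | ∃ z : Fin N → ℤ, x + zr z ∈ U}

/-- The translate `y + S`. -/
def tr (y : Fin N → ℝ) (S : Set (Fin N → ℝ)) : Set (Fin N → ℝ) := (fun u => u - y) ⁻¹' S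

/-- `U` meets none of its nontrivial integer translates. -/
def Inj (U : Set (Fin N → ℝ)) : Prop := ∀ u ∈ U, ∀ z : Fin N → ℤ, u + zr z ∈ U → z = 0

lemma per_eq_iUnion (U : Set (Fin N → ℝ)) :
    per U = ⋃ z : Fin N → ℤ, (fun x => x + zr z) ⁻¹' U := by
  ext x; simp [per]

lemma measurableSet_per {U : Set (Fin N → ℝ)} (hU : MeasurableSet U) : MeasurableSet (per U) := by
  rw [per_eq_iUnion]
  exact MeasurableSet.iUnion fun z => hU.preimage (measurable_add_const _)

lemma measurableSet_tr {S : Set (Fin N → ℝ)} (hS : MeasurableSet S) (y : Fin N → ℝ) :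
    MeasurableSet (tr y S) :=
  hS.preimage (measurable_id.sub_const y)

lemma Inj.mono {S T : Set (Fin N → ℝ)} (h : Inj T) (hST : S ⊆ T) : Inj S :=
  fun u hu z hz => h u (hST hu) z (hST hz)

lemma Inj.tr {S : Set (Fin N → ℝ)} (h : Inj S) (y : Fin N → ℝ) : Inj (Rogers.tr y S) := by
  intro u hu z hz
  refine h (u - y) hu z ?_
  have e : u - y + zr z = u + zr z - y := by abel
  rw [e]
  exact hz

lemma inj_of_small {S : Set (Fin N → ℝ)} (hS : ∀ s ∈ S, ‖s‖ < 1 / 2) : Inj S := by
  intro u hu z hz
  funext i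
  have h1 := (norm_le_pi_norm u i).trans_lt (hS u hu)
  have h2 := (norm_le_pi_norm (u + zr z) i).trans_lt (hS _ hz)
  rw [Real.norm_eq_abs, abs_lt] at h1 h2
  simp only [Pi.add_apply, zr] at h2
  have h3 : ((z i : ℤ) : ℝ) < 1 := by linarith
  have h4 : ((-1 : ℤ) : ℝ) < ((z i : ℤ) : ℝ) := by push_cast; linarith
  have h5 : z i < 1 := by exact_mod_cast h3
  have h6 : -1 < z i := by exact_mod_cast h4
  show z i = 0
  omega

lemma volume_tr (y : Fin N → ℝ) (S : Set (Fin N → ℝ)) : volume (tr y S) = volume S := by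
  have : tr y S = (fun u => u + -y) ⁻¹' S := by
    ext u; simp [tr, sub_eq_add_neg]
  rw [this, measure_preimage_add_right]

/-- Periodisation of an injectively projected set keeps its volume. -/
lemma volume_per {U : Set (Fin N → ℝ)} (hU : MeasurableSet U) (hinj : Inj U) :
    volume (per U ∩ cell 0) = volume U := by
  set V : (Fin N → ℤ) → Set (Fin N → ℝ) := fun z => (fun x => x + zr z) ⁻¹' U ∩ cell 0 with hV
  have hVm : ∀ z, MeasurableSet (V z) := fun z =>
    (hU.preimage (measurable_add_const _)).inter (measurableSet_cell _)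
  have hdis : Pairwise (Function.onFun Disjoint V) := fun z z' hne =>
    Set.disjoint_left.2 fun x hx hx' => hne (by
      have h1 : x + zr z + zr (z' - z) ∈ U := by
        rw [add_assoc, ← zr_add, add_sub_cancel]
        exact hx'.1
      exact (sub_eq_zero.1 (hinj _ hx.1 _ h1)).symm)
  have hsum : volume U = ∑' z, volume (V z) := by
    calc volume U = ∫⁻ _x in U, 1 := (setLIntegral_one U).symm
      _ = ∑' z, ∫⁻ _x in cell (0 + zr z), 1 ∂(volume.restrict U) := lintegral_eq_tsum_cells 0 U _
      _ = _ := tsum_congr fun z => by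
        rw [Measure.restrict_restrict (measurableSet_cell _), setLIntegral_one, zero_add, hV,
          ← measure_preimage_add_right volume (zr z) (cell (zr z) ∩ U), preimage_inter,
          preimage_add_cell, sub_self, inter_comm]
  rw [hsum, ← measure_iUnion hdis hVm]
  congr 1
  rw [per_eq_iUnion, iUnion_inter]

/-- Some translate covers at least the average share of any given set. -/
lemma exists_greedy_step {S U : Set (Fin N → ℝ)} (hS : MeasurableSet S) (hinj : Inj S)
    (hSf : volume S ≠ ⊤) (hUf : volume U ≠ ⊤) :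
    ∃ y, volume S * volume U ≤ volume (per (tr y S) ∩ U) := by
  haveI : IsProbabilityMeasure (volume.restrict (cell (0 : Fin N → ℝ))) :=
    ⟨by rw [Measure.restrict_apply_univ, volume_cell]⟩
  set J : Set ((Fin N → ℝ) × (Fin N → ℝ)) := {p | p.2 ∈ per (tr p.1 S)} with hJdef
  have hJ : MeasurableSet J := by
    have e : J = ⋃ z : Fin N → ℤ,
        (fun p : (Fin N → ℝ) × (Fin N → ℝ) => p.2 + zr z - p.1) ⁻¹' S := by
      ext p; simp [hJdef, per, tr]
    rw [e]
    exact MeasurableSet.iUnion fun z =>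
      hS.preimage ((measurable_snd.add_const _).sub measurable_fst)
  set F : (Fin N → ℝ) → (Fin N → ℝ) → ℝ≥0∞ := fun y x => J.indicator 1 (y, x) with hF
  have hFm : Measurable (Function.uncurry F) := measurable_one.indicator hJ
  have hy : ∀ y, ∫⁻ x in U, F y x = volume (per (tr y S) ∩ U) := fun y => by
    have e : (fun x => F y x) = (per (tr y S)).indicator 1 := by
      funext x; rfl
    rw [e, lintegral_indicator_one (measurableSet_per (measurableSet_tr hS y)),
      Measure.restrict_apply (measurableSet_per (measurableSet_tr hS y))]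
  have hx : ∀ x, ∫⁻ y in cell (0 : Fin N → ℝ), F y x = volume S := fun x => by
    set Ux : Set (Fin N → ℝ) := (fun y => x - y) ⁻¹' S with hUx
    have hUxm : MeasurableSet Ux := hS.preimage (measurable_id.const_sub x)
    have e : (fun y => F y x) = (per Ux).indicator 1 := by
      funext y
      have h : (y, x) ∈ J ↔ y ∈ per Ux := by
        constructor
        · rintro ⟨z, hz⟩
          refine ⟨-z, ?_⟩
          have e : x - (y + zr (-z)) = x + zr z - y := by rw [zr_neg]; abel
          show x - (y + zr (-z)) ∈ S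
          rw [e]
          exact hz
        · rintro ⟨z, hz⟩
          refine ⟨-z, ?_⟩
          have e : x + zr (-z) - y = x - (y + zr z) := by rw [zr_neg]; abel
          show x + zr (-z) - y ∈ S
          rw [e]
          exact hz
      by_cases hm : y ∈ per Ux
      · simp [hF, hm, h.2 hm]
      · simp [hF, hm, mt h.1 hm]
    rw [e, lintegral_indicator_one (measurableSet_per hUxm),
      Measure.restrict_apply (measurableSet_per hUxm), volume_per hUxm]
    · exact (Measure.measurePreserving_sub_left volume x).measure_preimage hS.nullMeasurableSet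
    · intro u hu z hz
      have e2 : x - u + zr (-z) = x - (u + zr z) := by rw [zr_neg]; abel
      have h := hinj (x - u) hu (-z) (e2.symm ▸ hz)
      simpa using h
  have htot : ∫⁻ y in cell (0 : Fin N → ℝ), volume (per (tr y S) ∩ U) = volume S * volume U := by
    simp only [← hy]
    rw [lintegral_lintegral_swap hFm.aemeasurable]
    simp only [hx]
    rw [setLIntegral_const]
  obtain ⟨y, hy'⟩ := exists_lintegral_le (μ := volume.restrict (cell (0 : Fin N → ℝ)))
    (f := fun y => volume (per (tr y S) ∩ U)) (by rw [htot]; exact ENNReal.mul_ne_top hSf hUf)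
  exact ⟨y, htot ▸ hy'⟩

/-- The part of the unit cell missed by the translates at the points of `Y`. -/
def rest (S : Set (Fin N → ℝ)) (Y : Finset (Fin N → ℝ)) : Set (Fin N → ℝ) :=
  cell 0 \ ⋃ y ∈ Y, per (tr y S)

lemma volume_rest_ne_top (S : Set (Fin N → ℝ)) (Y : Finset (Fin N → ℝ)) :
    volume (rest S Y) ≠ ⊤ :=
  ne_top_of_le_ne_top (by rw [volume_cell]; simp) (measure_mono sdiff_subset)

lemma exists_greedy {S : Set (Fin N → ℝ)} (hS : MeasurableSet S) (hinj : Inj S) :
    (volume S).toReal ≤ 1 ∧ ∀ k : ℕ, ∃ Y : Finset (Fin N → ℝ), Y.card ≤ k ∧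
      (volume (rest S Y)).toReal ≤ (1 - (volume S).toReal) ^ k := by
  classical
  have hS1 : volume S ≤ 1 := by
    rw [← volume_per hS hinj, ← volume_cell (0 : Fin N → ℝ)]
    exact measure_mono inter_subset_right
  have hv1 : (volume S).toReal ≤ 1 := by
    simpa using ENNReal.toReal_mono ENNReal.one_ne_top hS1
  refine ⟨hv1, fun k => ?_⟩
  induction k with
  | zero => exact ⟨∅, le_rfl, by simp [rest, volume_cell]⟩
  | succ k ih =>
    obtain ⟨Y, hY, hk⟩ := ih
    obtain ⟨y, hy⟩ := exists_greedy_step hS hinj (ne_top_of_le_ne_top ENNReal.one_ne_top hS1)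
      (volume_rest_ne_top S Y)
    refine ⟨insert y Y, (Finset.card_insert_le _ _).trans (Nat.succ_le_succ hY), ?_⟩
    have e : rest S (insert y Y) = rest S Y \ per (tr y S) := by
      rw [rest, rest, Finset.set_biUnion_insert, union_comm, sdiff_sdiff]
    have h2 := measure_inter_add_sdiff (μ := (volume : Measure (Fin N → ℝ))) (rest S Y)
      (measurableSet_per (measurableSet_tr hS y))
    have hfi : volume (rest S Y ∩ per (tr y S)) ≠ ⊤ :=
      ne_top_of_le_ne_top (volume_rest_ne_top S Y) (measure_mono inter_subset_left)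
    have hfd : volume (rest S Y \ per (tr y S)) ≠ ⊤ :=
      ne_top_of_le_ne_top (volume_rest_ne_top S Y) (measure_mono sdiff_subset)
    have h3 := congrArg ENNReal.toReal h2
    rw [ENNReal.toReal_add hfi hfd] at h3
    have h4 := ENNReal.toReal_mono hfi (inter_comm (per (tr y S)) (rest S Y) ▸ hy)
    rw [ENNReal.toReal_mul] at h4
    rw [e, pow_succ]
    calc (volume (rest S Y \ per (tr y S))).toReal
        ≤ (volume (rest S Y)).toReal * (1 - (volume S).toReal) := by linarith
      _ ≤ _ := mul_le_mul_of_nonneg_right hk (by linarith)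

/-- A periodic covering by translates of `(1 + η) S` with few points per period. -/
theorem exists_periodic_cover {S W : Set (Fin N → ℝ)} (hSc : Convex ℝ S) (hSk : IsCompact S)
    (hS0 : (0 : Fin N → ℝ) ∈ S) (hSb : ∀ s ∈ S, ‖s‖ < 1 / 2) (hWS : W ⊆ S)
    (hWk : IsCompact W) (hWs : ∀ w ∈ W, -w ∈ W)
    (hWv : (1 / 2) ^ N * (volume S).toReal ≤ (volume W).toReal) (hv : 0 < (volume S).toReal)
    {η : ℝ} (hη : 0 < η) (hη1 : η ≤ 1) {μ : ℝ} (hμ : 0 ≤ μ) :
    ∃ P : Finset (Fin N → ℝ),
      (∀ x, ∃ s ∈ S, ∃ p ∈ P, ∃ z : Fin N → ℤ, x = (1 + η) • s + (p + zr z)) ∧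
      (P.card : ℝ) * (volume S).toReal ≤ μ + 1 + Real.exp (-μ) * (2 / η) ^ N := by
  classical
  have hSm := hSk.measurableSet
  have hinj := inj_of_small hSb
  obtain ⟨hv1, hgreedy⟩ := exists_greedy hSm hinj
  set v := (volume S).toReal with hvdef
  set k := ⌈μ / v⌉₊ with hk
  obtain ⟨Y, hYk, hYr⟩ := hgreedy k
  have hk2 : (k : ℝ) * v ≤ μ + 1 := by
    have := (Nat.ceil_lt_add_one (show 0 ≤ μ / v by positivity)).le
    calc (k : ℝ) * v ≤ (μ / v + 1) * v := mul_le_mul_of_nonneg_right this hv.le
      _ ≤ μ + 1 := by rw [add_mul, div_mul_cancel₀ _ hv.ne']; linarith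
  have hrest : (volume (rest S Y)).toReal ≤ Real.exp (-μ) := by
    refine hYr.trans ?_
    calc (1 - v) ^ k ≤ Real.exp (-v) ^ k :=
          pow_le_pow_left₀ (by linarith) (Real.one_sub_le_exp_neg v) k
      _ = Real.exp (k * -v) := (Real.exp_nat_mul _ k).symm
      _ ≤ Real.exp (-μ) := Real.exp_le_exp.2 (by
          have : μ / v ≤ k := Nat.le_ceil _
          rw [div_le_iff₀ hv] at this
          linarith)
  have hηS : η • W ⊆ S := by
    rintro _ ⟨w, hw, rfl⟩
    exact hSc.smul_mem_of_zero_mem hS0 (hWS hw) ⟨hη.le, hη1⟩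
  have hηWm : MeasurableSet (η • W) := (hWk.smul η).measurableSet
  set Ω : Set (Fin N → ℝ) :=
    {x | ∀ y ∈ Y, ∀ z : Fin N → ℤ, ∀ s ∈ S, x ≠ (1 + η) • s + (y + zr z)} with hΩ
  set G : (Fin N → ℝ) → Set (Fin N → ℝ) := fun a => per (tr a (η • W)) ∩ cell 0 with hG
  have hGm : ∀ a, MeasurableSet (G a) := fun a =>
    (measurableSet_per (measurableSet_tr hηWm a)).inter (measurableSet_cell _)
  have hGv : ∀ a, (volume (G a)).toReal = η ^ N * (volume W).toReal := fun a => by
    rw [hG]
    simp only
    rw [volume_per (measurableSet_tr hηWm a) ((hinj.mono hηS).tr a), volume_tr, Measure.addHaar_smul,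
      Module.finrank_fin_fun, abs_of_nonneg (pow_nonneg hη.le N), ENNReal.toReal_mul,
      ENNReal.toReal_ofReal (pow_nonneg hη.le N)]
  have hGsub : ∀ a ∈ Ω, G a ⊆ rest S Y := by
    rintro a ha x ⟨⟨z, w, hw, hwe⟩, hx0⟩
    refine ⟨hx0, fun hcov => ?_⟩
    simp only [mem_iUnion] at hcov
    obtain ⟨y, hy, z', hz'⟩ := hcov
    have hs : x + zr z' - y ∈ S := hz'
    have hwe' : η • w = x + zr z - a := hwe
    refine ha y hy (z - z') ((1 / (1 + η)) • (x + zr z' - y) + (η / (1 + η)) • (-w))
      (hSc hs (hWS (hWs w hw)) (by positivity) (by positivity) (by field_simp)) ?_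
    rw [smul_add, smul_smul, smul_smul]
    have e1 : (1 + η) * (1 / (1 + η)) = 1 := by field_simp
    have e2 : (1 + η) * (η / (1 + η)) = η := by field_simp
    rw [e1, e2, one_smul, smul_neg, hwe', sub_eq_add_neg z z', zr_add, zr_neg]
    abel
  set good : Finset (Fin N → ℝ) → Prop := fun F =>
    (↑F : Set (Fin N → ℝ)) ⊆ Ω ∧ (↑F : Set (Fin N → ℝ)).PairwiseDisjoint G with hgood
  have hbound : ∀ F, good F → (F.card : ℝ) * v ≤ Real.exp (-μ) * (2 / η) ^ N := by
    rintro F ⟨hFΩ, hFd⟩
    have h1 : volume (⋃ a ∈ F, G a) ≤ volume (rest S Y) :=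
      measure_mono (iUnion₂_subset fun a ha => hGsub a (hFΩ ha))
    rw [measure_biUnion_finset hFd fun a _ => hGm a] at h1
    have h2 := ENNReal.toReal_mono (volume_rest_ne_top S Y) h1
    rw [ENNReal.toReal_sum fun a _ => ne_top_of_le_ne_top (by rw [volume_cell]; simp)
      (measure_mono inter_subset_right), Finset.sum_congr rfl fun a _ => hGv a, Finset.sum_const,
      nsmul_eq_mul] at h2
    have h2' : (F.card : ℝ) * (η ^ N * (volume W).toReal) ≤ Real.exp (-μ) := h2.trans hrest
    calc (F.card : ℝ) * v ≤ (F.card : ℝ) * (2 ^ N * (volume W).toReal) := by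
          refine mul_le_mul_of_nonneg_left ?_ (by positivity)
          rw [one_div, inv_pow, inv_mul_le_iff₀ (by positivity)] at hWv
          exact hWv
      _ = (F.card : ℝ) * (η ^ N * (volume W).toReal) * (2 / η) ^ N := by
          rw [div_pow]; field_simp
      _ ≤ _ := mul_le_mul_of_nonneg_right h2' (by positivity)
  set Ks : Set ℕ := {j | ∃ F, good F ∧ F.card = j} with hKs
  have hKne : Ks.Nonempty :=
    ⟨0, ∅, ⟨by simp, by simp⟩, rfl⟩
  have hKb : BddAbove Ks := by
    refine ⟨⌊Real.exp (-μ) * (2 / η) ^ N / v⌋₊, ?_⟩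
    rintro _ ⟨F, hF, rfl⟩
    exact Nat.le_floor ((le_div_iff₀ hv).2 (hbound F hF))
  obtain ⟨F, hF, hFc⟩ := Nat.sSup_mem hKne hKb
  refine ⟨Y ∪ F, fun x => ?_, ?_⟩
  · by_cases hx : x ∈ Ω
    · by_cases hxF : x ∈ F
      · exact ⟨0, hS0, x, Finset.mem_union_right _ hxF, 0, by
          simp [show zr (0 : Fin N → ℤ) = 0 by funext i; simp [zr]]⟩
      · obtain ⟨a, ha, hna⟩ : ∃ a ∈ F, ¬ Disjoint (G x) (G a) := by
          by_contra hcon
          push Not at hcon
          have hgood' : good (insert x F) := by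
            refine ⟨?_, ?_⟩
            · rw [Finset.coe_insert]
              exact insert_subset hx hF.1
            · rw [Finset.coe_insert]
              exact hF.2.insert fun a ha _ => hcon a ha
          have h : (insert x F).card ≤ sSup Ks := le_csSup hKb ⟨_, hgood', rfl⟩
          rw [Finset.card_insert_of_notMem hxF, hFc] at h
          omega
        obtain ⟨t, ⟨⟨z2, w2, hw2, e2⟩, -⟩, ⟨z1, w1, hw1, e1⟩, -⟩ := Set.not_disjoint_iff.1 hna
        have e1' : η • w1 = t + zr z1 - a := e1
        have e2' : η • w2 = t + zr z2 - x := e2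
        refine ⟨(2 * η / (1 + η)) • ((1 / 2 : ℝ) • w1 + (1 / 2 : ℝ) • (-w2)), ?_, a,
          Finset.mem_union_right _ ha, z2 - z1, ?_⟩
        · refine hSc.smul_mem_of_zero_mem hS0 ?_ ⟨by positivity, ?_⟩
          · exact hSc (hWS hw1) (hWS (hWs _ hw2)) (by norm_num) (by norm_num) (by norm_num)
          · rw [div_le_one (by positivity)]
            linarith
        · rw [smul_smul, show (1 + η) * (2 * η / (1 + η)) = 2 * η by field_simp, smul_add,
            smul_smul, smul_smul, show 2 * η * (1 / 2) = η by ring, smul_neg, e1', e2',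
            sub_eq_add_neg z2 z1, zr_add, zr_neg]
          abel
    · simp only [hΩ, mem_ofPred_eq, not_forall, exists_prop, not_not, ne_eq] at hx
      obtain ⟨y, hy, z, s, hs, he⟩ := hx
      exact ⟨s, hs, y, Finset.mem_union_left _ hy, z, he⟩
  · calc ((Y ∪ F).card : ℝ) * v ≤ ((k : ℝ) + F.card) * v := by
          refine mul_le_mul_of_nonneg_right ?_ hv.le
          exact_mod_cast (Finset.card_union_le _ _).trans (Nat.add_le_add_right hYk _)
      _ ≤ _ := by rw [add_mul]; linarith [hbound F hF]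

end

end Vale.Agent.P230.Rogers
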