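import Vale.Agent.P230.Defs
import Vale.Agent.P230.Upper.Transfer
import Vale.Agent.P230.Rogers.Greedy

/-!
P230: Rogers' bound `θ_T(K) ≤ C n log n` for every convex body.
-/

open MeasureTheory Set Filter Topology
open scoped ENNReal Pointwise

namespace Vale.Agent.P230.Rogers

open Vale.Agent.P230.Upper

noncomputable section

variable {N : ℕ}

lemma volume_ofLp {K : Set (EuclideanSpace ℝ (Fin N))} (hK : IsCompact K) :
    volume (WithLp.ofLp '' K : Set (Fin N → ℝ)) = volume K := by
  have hq : MeasurePreserving (WithLp.toLp 2 : (Fin N → ℝ) → EuclideanSpace ℝ (Fin N)) volume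
      volume := PiLp.volume_preserving_toLp _
  rw [← hq.measure_preimage hK.measurableSet.nullMeasurableSet]
  congr 1
  ext x
  simp only [mem_preimage, mem_image]
  exact ⟨fun ⟨k, hk, hkx⟩ => by rw [← hkx]; exact hk, fun h => ⟨_, h, rfl⟩⟩

/-- A periodic covering bounds the translative covering density. -/
theorem thetaT_le_periodic {K : Set (EuclideanSpace ℝ (Fin N))} (P : Finset (Fin N → ℝ))
    (a : Fin N → ℝ) {c : ℝ} (hc : 0 < c)
    (hcov : ∀ x : Fin N → ℝ, ∃ k ∈ WithLp.ofLp '' K, ∃ p ∈ P, ∃ z : Fin N → ℤ,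
      x = k + (a + c • (p + zr z))) :
    thetaT K ≤ volume K * ENNReal.ofReal ((P.card : ℝ) / c ^ N) := by
  classical
  set X : Set (EuclideanSpace ℝ (Fin N)) :=
    {x | ∃ p ∈ P, ∃ z : Fin N → ℤ, x = WithLp.toLp 2 (a + c • (p + zr z))} with hX
  set box : ℝ → (Fin N → ℝ) → Finset (Fin N → ℤ) := fun R p => Fintype.piFinset fun i =>
    Finset.Icc ⌈(-R - a i) / c - p i⌉ ⌊(R - a i) / c - p i⌋ with hbox
  have hsub : ∀ R, X ∩ cube N R ⊆ ↑(P.biUnion fun p => (box R p).image fun z =>
      (WithLp.toLp 2 (a + c • (p + zr z)) : EuclideanSpace ℝ (Fin N))) := by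
    rintro R _ ⟨⟨p, hp, z, rfl⟩, hR⟩
    simp only [Finset.coe_biUnion, mem_iUnion, Finset.coe_image]
    refine ⟨p, hp, z, ?_, rfl⟩
    rw [Finset.mem_coe, hbox, Fintype.mem_piFinset]
    intro i
    have h := hR i
    simp only [PiLp.toLp_apply, Pi.add_apply, Pi.smul_apply, smul_eq_mul, zr, abs_le] at h
    rw [Finset.mem_Icc]
    constructor
    · rw [Int.ceil_le, sub_le_iff_le_add, div_le_iff₀ hc]
      linarith [h.1]
    · rw [Int.le_floor, le_sub_iff_add_le, le_div_iff₀ hc]
      linarith [h.2]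
  have hcard : ∀ R, 0 ≤ R → ∀ p, ((box R p).card : ℝ) ≤ (2 * R / c + 1) ^ N := fun R hR p => by
    rw [hbox]
    simp only
    rw [Fintype.card_piFinset, Nat.cast_prod]
    refine (Finset.prod_le_prod (g := fun _ => 2 * R / c + 1) (fun _ _ => Nat.cast_nonneg _)
      fun i _ => ?_).trans (le_of_eq (by simp))
    rw [Int.card_Icc]
    set u := (R - a i) / c - p i with hu
    set l := (-R - a i) / c - p i with hl
    have hul : u - l = 2 * R / c := by rw [hu, hl]; ring
    rcases le_or_gt 0 (⌊u⌋ + 1 - ⌈l⌉) with h | h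
    · have e : (((⌊u⌋ + 1 - ⌈l⌉).toNat : ℕ) : ℝ) = ((⌊u⌋ + 1 - ⌈l⌉ : ℤ) : ℝ) := by
        rw [← Int.cast_natCast, Int.toNat_of_nonneg h]
      rw [e]
      push_cast
      linarith [Int.floor_le u, Int.le_ceil l]
    · rw [Int.toNat_of_nonpos h.le, Nat.cast_zero]
      positivity
  have hloc : LocFin X := by
    intro s hs
    obtain ⟨R, hR⟩ := hs.exists_norm_le
    have hsR : s ⊆ cube N R := fun x hx i => by
      rw [← Real.norm_eq_abs]
      exact (PiLp.norm_apply_le x i).trans (hR x hx)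
    exact (Finset.finite_toSet _).subset ((inter_subset_inter_right X hsR).trans (hsub R))
  have hcov' : K + X = univ := by
    refine eq_univ_of_forall fun y => ?_
    obtain ⟨_, ⟨k, hk, rfl⟩, p, hp, z, hz⟩ := hcov (WithLp.ofLp y)
    refine ⟨k, hk, _, ⟨p, hp, z, rfl⟩, ?_⟩
    apply WithLp.ofLp_injective
    simp [hz]
  have hdens : upperDensity X ≤ ENNReal.ofReal ((P.card : ℝ) / c ^ N) := by
    have hlim : Tendsto (fun R : ℝ => ENNReal.ofReal ((P.card : ℝ) * (1 / c + 1 / (2 * R)) ^ N))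
        atTop (𝓝 (ENNReal.ofReal ((P.card : ℝ) / c ^ N))) := by
      refine ENNReal.tendsto_ofReal ?_
      have h0 : Tendsto (fun R : ℝ => 1 / (2 * R)) atTop (𝓝 0) :=
        tendsto_const_nhds.div_atTop (tendsto_id.const_mul_atTop two_pos)
      have h := (((tendsto_const_nhds (x := (1 / c : ℝ))).add h0).pow N).const_mul (P.card : ℝ)
      rwa [add_zero, div_pow, one_pow, mul_one_div] at h
    refine le_trans (limsup_le_limsup ?_) hlim.limsup_eq.le
    filter_upwards [eventually_gt_atTop 0] with R hR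
    have h1 : (X ∩ cube N R).encard ≤ ((P.biUnion fun p => (box R p).image fun z =>
        (WithLp.toLp 2 (a + c • (p + zr z)) : EuclideanSpace ℝ (Fin N))).card : ℕ∞) :=
      (Set.encard_le_encard (hsub R)).trans_eq (Set.encard_coe_eq_coe_finsetCard _)
    have h2 : ((P.biUnion fun p => (box R p).image fun z =>
        (WithLp.toLp 2 (a + c • (p + zr z)) : EuclideanSpace ℝ (Fin N))).card : ℝ) ≤
        (P.card : ℝ) * (2 * R / c + 1) ^ N := by
      calc _ ≤ ((∑ p ∈ P, (box R p).card : ℕ) : ℝ) := by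
            exact_mod_cast Finset.card_biUnion_le.trans
              (Finset.sum_le_sum fun p _ => Finset.card_image_le)
        _ ≤ ∑ _p ∈ P, (2 * R / c + 1) ^ N := by
            push_cast
            exact Finset.sum_le_sum fun p _ => hcard R hR.le p
        _ = _ := by rw [Finset.sum_const, nsmul_eq_mul]
    rw [ENNReal.div_le_iff (by simpa using pow_pos (by positivity : (0 : ℝ) < 2 * R) N)
      ENNReal.ofReal_ne_top, ← ENNReal.ofReal_mul (by positivity), mul_assoc, ← mul_pow,
      show (1 / c + 1 / (2 * R)) * (2 * R) = 2 * R / c + 1 by field_simp]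
    refine le_trans ?_ (ENNReal.ofReal_le_ofReal h2)
    rw [ENNReal.ofReal_natCast]
    calc ((X ∩ cube N R).encard : ℝ≥0∞)
        ≤ (((P.biUnion fun p => (box R p).image fun z =>
          (WithLp.toLp 2 (a + c • (p + zr z)) : EuclideanSpace ℝ (Fin N))).card : ℕ∞) : ℝ≥0∞) :=
          ENat.toENNReal_le.2 h1
      _ = _ := ENat.toENNReal_coe _
  exact le_trans (iInf_le_of_le X (iInf_le_of_le hloc (iInf_le _ hcov')))
    (mul_le_mul' le_rfl hdens)

/-- Rogers' bound, with a simple explicit constant. -/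
theorem thetaT_upper (hN : 0 < N) {K : Set (EuclideanSpace ℝ (Fin N))} (hK : IsConvexBody K) :
    thetaT K ≤ ENNReal.ofReal (3 * ((N : ℝ) * Real.log (2 * N) + 2)) := by
  obtain ⟨hKc, hKk, hKi⟩ := hK
  set K' : Set (Fin N → ℝ) := WithLp.ofLp '' K with hK'
  have hK'c : Convex ℝ K' := hKc.linear_image (WithLp.linearEquiv 2 ℝ (Fin N → ℝ)).toLinearMap
  have hK'k : IsCompact K' := hKk.image (PiLp.continuous_ofLp 2 _)
  have hvK : volume K' = volume K := volume_ofLp hKk
  have hpos : 0 < (volume K').toReal := by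
    rw [hvK]
    exact ENNReal.toReal_pos (Measure.measure_pos_of_nonempty_interior _ hKi).ne' hKk.measure_lt_top.ne
  obtain ⟨a, W, hWc, hWk, hW0, hWs, hWK, hWv, -⟩ := exists_sym hK'c hK'k hpos
  set B : Set (Fin N → ℝ) := (fun x => a + x) ⁻¹' K' with hB
  have hBc : Convex ℝ B := hK'c.translate_preimage_right a
  have hBk : IsCompact B := (Homeomorph.addLeft a).isCompact_preimage.2 hK'k
  have hB0 : (0 : Fin N → ℝ) ∈ B := hWK 0 hW0
  have hBv : volume B = volume K' := by rw [hB, measure_preimage_add]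
  obtain ⟨R, hR⟩ := hBk.isBounded.exists_norm_le
  have hR0 : 0 ≤ R := (norm_nonneg _).trans (hR 0 hB0)
  set T : ℝ := 2 * R + 1 with hT
  have hT0 : 0 < T := by positivity
  set S : Set (Fin N → ℝ) := T⁻¹ • B with hS
  have hsm : ∀ A : Set (Fin N → ℝ),
      (volume (T⁻¹ • A)).toReal = (T ^ N)⁻¹ * (volume A).toReal := fun A => by
    rw [Measure.addHaar_smul, Module.finrank_fin_fun, abs_of_nonneg (by positivity),
      ENNReal.toReal_mul, ENNReal.toReal_ofReal (by positivity), inv_pow]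
  have hv : 0 < (volume S).toReal := by rw [hS, hsm, hBv]; positivity
  set η : ℝ := 1 / (N : ℝ) with hη
  have hN1 : (1 : ℝ) ≤ N := by exact_mod_cast hN
  have hη0 : 0 < η := by positivity
  have hη1 : η ≤ 1 := by rw [hη, div_le_one (by positivity)]; exact hN1
  set μ : ℝ := (N : ℝ) * Real.log (2 * N) with hμ
  have hμ0 : 0 ≤ μ := mul_nonneg (by positivity) (Real.log_nonneg (by linarith))
  obtain ⟨P, hcov, hcard⟩ := exists_periodic_cover (S := S) (W := T⁻¹ • W) (hBc.smul _)
    (hBk.smul _) ⟨0, hB0, smul_zero _⟩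
    (by
      rintro _ ⟨x, hx, rfl⟩
      rw [norm_smul, Real.norm_of_nonneg (by positivity), inv_mul_lt_iff₀ hT0]
      have := hR x hx
      linarith)
    (smul_set_mono fun w hw => hWK w hw) (hWk.smul _)
    (by
      rintro _ ⟨w, hw, rfl⟩
      exact ⟨-w, hWs w hw, smul_neg _ _⟩)
    (by
      rw [hS, hsm, hsm, hBv, mul_left_comm]
      exact mul_le_mul_of_nonneg_left hWv (by positivity))
    hv hη0 hη1 hμ0
  set c : ℝ := T / (1 + η) with hc
  have hc0 : 0 < c := by positivity
  refine le_trans (thetaT_le_periodic P (-a) hc0 fun x => ?_) ?_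
  · obtain ⟨s, hs, p, hp, z, he⟩ := hcov (c⁻¹ • x)
    obtain ⟨b, hb, rfl⟩ := hs
    refine ⟨a + b, hb, p, hp, z, ?_⟩
    have e : x = c • ((1 + η) • (T⁻¹ • b) + (p + zr z)) := by
      rw [← he, smul_inv_smul₀ hc0.ne']
    have e2 : c * ((1 + η) * T⁻¹) = 1 := by rw [hc]; field_simp
    rw [e, smul_add, smul_smul (1 + η), smul_smul c, e2, one_smul]
    abel
  · rw [← hvK, ← ENNReal.ofReal_toReal (a := volume K') hK'k.measure_lt_top.ne,
      ← ENNReal.ofReal_mul hpos.le]
    refine ENNReal.ofReal_le_ofReal ?_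
    have e : (volume K').toReal * ((P.card : ℝ) / c ^ N) =
        (1 + η) ^ N * ((P.card : ℝ) * (volume S).toReal) := by
      rw [hS, hsm, hBv, hc, div_pow]
      field_simp
    have hpow : (1 + η) ^ N ≤ 3 := by
      calc (1 + η) ^ N ≤ Real.exp η ^ N :=
            pow_le_pow_left₀ (by positivity) (by linarith [Real.add_one_le_exp η]) N
        _ = Real.exp 1 := by
            rw [← Real.exp_nat_mul, hη]; congr 1; field_simp
        _ ≤ 3 := Real.exp_one_lt_three.le
    have hlast : Real.exp (-μ) * (2 / η) ^ N = 1 := by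
      rw [Real.exp_neg, hμ, Real.exp_nat_mul, Real.exp_log (by positivity), hη]
      field_simp
    rw [hlast] at hcard
    rw [e]
    calc (1 + η) ^ N * ((P.card : ℝ) * (volume S).toReal)
        ≤ 3 * (μ + 1 + 1) := mul_le_mul hpow hcard (by positivity) (by norm_num)
      _ = _ := by ring

/-- For `n ≥ 8` the bound is at most `9 n log n`. -/
theorem thetaT_upper_log (hN : 8 ≤ N) {K : Set (EuclideanSpace ℝ (Fin N))} (hK : IsConvexBody K) :
    thetaT K ≤ ENNReal.ofReal (9 * ((N : ℝ) * Real.log N)) := by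
  refine (thetaT_upper (by omega) hK).trans (ENNReal.ofReal_le_ofReal ?_)
  have h8 : (8 : ℝ) ≤ N := by exact_mod_cast hN
  have hlog : Real.log 2 ≤ Real.log N := Real.log_le_log two_pos (by linarith)
  have h2 := Real.log_two_gt_d9
  rw [Real.log_mul two_ne_zero (by linarith)]
  nlinarith

end

end Vale.Agent.P230.Rogers
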